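import Vale.Agent.P166W.Block
import Vale.Agent.P166W.Rotate

/-!
P166: the pressure of orthogonally invariant Ising models with couplings
`J = a I + (1/N) ∑_{k ≤ αN} x_k g_k g_kᵀ` (Gaussian `g_k`, independent weights `x_k` of law `ν`)
converges at every `α` when `|β x| ≤ 1/128` for `ν`-almost every `x`.
-/

namespace Vale.Agent.Results.P166.CompoundWishartLimit

open MeasureTheory ProbabilityTheory Filter Finset Matrix
open scoped Topology
open Vale.Agent.P166W (gauss sp en cl law uvec wF lM l0)

/-- The coupling matrix of a shift and `M` weighted Gaussian patterns. -/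
noncomputable def coupling (a : ℝ) (N M : ℕ) (ω : Fin M → (Fin N → ℝ) × ℝ) (i j : Fin N) : ℝ :=
  (if i = j then a else 0) + (∑ k, (ω k).2 * (ω k).1 i * (ω k).1 j) / N

/-- The pressure of the coupling matrix `J` at inverse temperature `β`. -/
noncomputable def pressure (β : ℝ) {N : ℕ} (J : Fin N → Fin N → ℝ) : ℝ :=
  Real.log ((∑ σ : Fin N → Bool, Real.exp (β / 2 *
    ∑ i, ∑ j, (if σ i then (1 : ℝ) else -1) * J i j * (if σ j then (1 : ℝ) else -1))) / 2 ^ N) / N

/-- Independent pairs of a standard Gaussian pattern and a weight of law `ν`. -/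
noncomputable def patterns (ν : Measure ℝ) (N M : ℕ) : Measure (Fin M → (Fin N → ℝ) × ℝ) :=
  Measure.pi fun _ => (Measure.pi fun _ => gaussianReal 0 1).prod ν

lemma pressure_eq (β a : ℝ) {N : ℕ} (hN : 0 < N) (M : ℕ) (ω : Fin M → (Fin N → ℝ) × ℝ)
    (hω : ∀ k, |β * (ω k).2| ≤ 1 / 128) :
    pressure β (coupling a N M ω) = β * a / 2 + l0 (0 + ∑ k, en β (ω k)) / N := by
  have hc : (Fintype.card (Fin N → Bool) : ℝ) = 2 ^ N := by simp
  have hN0 : (N : ℝ) ≠ 0 := by exact_mod_cast hN.ne'
  have hs : Real.sqrt N * Real.sqrt N = N := Real.mul_self_sqrt (Nat.cast_nonneg N)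
  have hH : ∀ σ : Fin N → Bool, β / 2 * ∑ i, ∑ j, (if σ i then (1 : ℝ) else -1) *
      coupling a N M ω i j * (if σ j then (1 : ℝ) else -1) =
      β * a / 2 * N + (0 + ∑ k, en β (ω k) : (Fin N → Bool) → ℝ) σ := fun σ => by
    simp only [Pi.add_apply, Pi.zero_apply, zero_add, Finset.sum_apply, en]
    have hcl : ∀ k, cl β (ω k).2 = β * (ω k).2 / 2 := fun k => by
      obtain ⟨h1, h2⟩ := abs_le.1 (hω k)
      rw [cl, min_eq_left (by linarith), max_eq_right (by linarith)]
    have e : ∀ k, (∑ i, uvec σ i * (ω k).1 i) ^ 2 =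
        (∑ i, ∑ j, (if σ i then (1 : ℝ) else -1) * ((ω k).1 i * (ω k).1 j) *
          (if σ j then (1 : ℝ) else -1)) / N := fun k => by
      rw [pow_two, sum_mul_sum, sum_div]
      refine sum_congr rfl fun i _ => ?_
      rw [sum_div]
      refine sum_congr rfl fun j _ => ?_
      simp only [uvec, sp, Fintype.card_fin]
      generalize Real.sqrt (N : ℝ) = q at hs ⊢
      rw [← hs]
      ring
    have hd : ∑ i, ∑ j, (if σ i then (1 : ℝ) else -1) * (if i = j then a else 0) *
        (if σ j then (1 : ℝ) else -1) = N * a := by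
      have hi : ∀ i, ∑ j, (if σ i then (1 : ℝ) else -1) * (if i = j then a else 0) *
          (if σ j then (1 : ℝ) else -1) = a := fun i => by
        rw [sum_eq_single i (fun j _ hj => by rw [if_neg hj.symm, mul_zero, zero_mul]) (by simp)]
        by_cases h : σ i <;> simp [h]
      simp only [hi, sum_const, card_univ, Fintype.card_fin, nsmul_eq_mul]
    simp only [coupling, mul_add, add_mul, sum_add_distrib, hd]
    congr 1
    · ring
    · simp only [hcl, e, mul_sum, sum_mul, sum_div]
      rw [eq_comm, sum_comm]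
      refine sum_congr rfl fun i _ => ?_
      rw [sum_comm]
      exact sum_congr rfl fun j _ => sum_congr rfl fun k _ => by ring
  simp only [pressure, l0, hc, hH, Real.exp_add, ← mul_sum, mul_div_assoc]
  rw [Real.log_mul (Real.exp_ne_zero _) (by positivity), Real.log_exp, add_div]
  congr 1
  field_simp

lemma coupling_rotate (a : ℝ) (N M : ℕ) (O : Matrix (Fin N) (Fin N) ℝ) (hO : Oᵀ * O = 1)
    (ω : Fin M → (Fin N → ℝ) × ℝ) :
    (fun i j => ∑ k, ∑ l, O i k * coupling a N M ω k l * O j l) =
      coupling a N M fun b => (O *ᵥ (ω b).1, (ω b).2) := by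
  funext i j
  simp only [coupling, mul_add, add_mul, sum_add_distrib, mul_ite, mul_zero, ite_mul, zero_mul,
    sum_ite_eq, mem_univ, if_true]
  congr 1
  · have hOO : O * Oᵀ = 1 := mul_eq_one_comm.1 hO
    calc ∑ k, O i k * a * O j k = a * (O * Oᵀ) i j := by
          simp only [mul_apply, transpose_apply, mul_sum]
          exact sum_congr rfl fun k _ => by ring
      _ = _ := by rw [hOO, one_apply, mul_ite, mul_one, mul_zero]
  · simp only [mulVec, dotProduct, mul_sum, sum_mul, sum_div, mul_div_assoc', div_mul_eq_mul_div]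
    refine (sum_congr rfl fun k _ => sum_comm).trans ?_
    rw [sum_comm]
    refine sum_congr rfl fun b _ => ?_
    rw [sum_comm]
    exact sum_congr rfl fun l _ => sum_congr rfl fun k _ => by ring

/-- For weights with `|β x| ≤ 1/128` and every `α > 0` the pressure of the orthogonally invariant
couplings `J_N = a I + (1/N) ∑_{k ≤ αN} x_k g_k g_kᵀ` converges in `L²` to a deterministic limit. -/
theorem result (β a α : ℝ) (ν : Measure ℝ) [IsProbabilityMeasure ν]
    (hν : ∀ᵐ x ∂ν, |β * x| ≤ 1 / 128) (hα : 0 < α) :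
    (∀ (N : ℕ) (O : Matrix (Fin N) (Fin N) ℝ), Oᵀ * O = 1 →
      (patterns ν N ⌊α * N⌋₊).map
          (fun ω i j => ∑ k, ∑ l, O i k * coupling a N ⌊α * N⌋₊ ω k l * O j l) =
        (patterns ν N ⌊α * N⌋₊).map (coupling a N ⌊α * N⌋₊)) ∧
    ∃ L : ℝ,
      Tendsto (fun N : ℕ => ∫ ω, pressure β (coupling a N ⌊α * N⌋₊ ω) ∂patterns ν N ⌊α * N⌋₊)
        atTop (𝓝 L) ∧
      (∀ᶠ N : ℕ in atTop, Integrable
        (fun ω => (pressure β (coupling a N ⌊α * N⌋₊ ω) - L) ^ 2) (patterns ν N ⌊α * N⌋₊)) ∧
      Tendsto (fun N : ℕ => ∫ ω, (pressure β (coupling a N ⌊α * N⌋₊ ω) - L) ^ 2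
        ∂patterns ν N ⌊α * N⌋₊) atTop (𝓝 0) := by
  constructor
  · intro N O hO
    set M := ⌊α * N⌋₊
    set R : (Fin M → (Fin N → ℝ) × ℝ) → Fin M → (Fin N → ℝ) × ℝ :=
      fun ω b => (O *ᵥ (ω b).1, (ω b).2)
    have e : (fun (ω : Fin M → (Fin N → ℝ) × ℝ) i j =>
        ∑ k, ∑ l, O i k * coupling a N M ω k l * O j l) = coupling a N M ∘ R :=
      funext fun ω => coupling_rotate a N M O hO ω
    have hm : Measurable R := Continuous.measurable (by fun_prop)
    have hp : (patterns ν N M).map R = patterns ν N M := by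
      have hpr : MeasurePreserving (fun v : Fin N → ℝ => O *ᵥ v) (gauss (Fin N)) (gauss (Fin N)) :=
        ⟨Continuous.measurable (by fun_prop), Vale.Agent.P166W.map_gauss_mulVec O hO⟩
      exact (measurePreserving_pi (fun _ : Fin M => law (Fin N) ν) (fun _ => law (Fin N) ν)
        fun _ => hpr.prod (MeasurePreserving.id ν)).map_eq
    rw [e, ← Measure.map_map (by unfold coupling; fun_prop) hm, hp]
  · obtain ⟨L, hL⟩ := Vale.Agent.P166W.exists_limit (ν := ν) β hα
    refine ⟨β * a / 2 + L, ?_⟩
    set M : ℕ → ℕ := fun N => ⌊α * N⌋₊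
    set m : ℕ → ℝ := fun N => wF β ν N (M N) / N with hm
    set T : ℕ → ℝ := fun N =>
      ∫ ω, (pressure β (coupling a N (M N) ω) - (β * a / 2 + L)) ^ 2 ∂patterns ν N (M N)
    have key : ∀ N : ℕ, 0 < N →
        (∫ ω, pressure β (coupling a N (M N) ω) ∂patterns ν N (M N)) = β * a / 2 + m N ∧
        Integrable (fun ω => (pressure β (coupling a N (M N) ω) - (β * a / 2 + L)) ^ 2)
          (patterns ν N (M N)) ∧
        T N ≤ 6 * α / N + (m N - L) ^ 2 := by
      intro N hN
      have : Nonempty (Fin N) := ⟨⟨0, hN⟩⟩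
      obtain ⟨i1, i2, e1, e2⟩ := Vale.Agent.P166W.self_averaging
        (Vale.Agent.P166W.energy_en (ι := Fin N) (ν := ν) β)
        (Vale.Agent.P166W.en_increment_sq (ι := Fin N) (ν := ν) β) (M N) 0
      have hN0 : (0 : ℝ) < N := by exact_mod_cast hN
      set Q := patterns ν N (M N) with hQ
      have hprob : IsProbabilityMeasure Q :=
        inferInstanceAs (IsProbabilityMeasure (Measure.pi fun _ : Fin (M N) => law (Fin N) ν))
      set Φ : (Fin (M N) → (Fin N → ℝ) × ℝ) → ℝ := fun ω => l0 (0 + ∑ k, en β (ω k))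
      set w := lM (law (Fin N) ν) (en (ι := Fin N) β) (M N) 0
      have hP : ∀ᵐ ω ∂Q, pressure β (coupling a N (M N) ω) = β * a / 2 + Φ ω / N := by
        have hall : ∀ k : Fin (M N), ∀ᵐ ω ∂Q, |β * (ω k).2| ≤ 1 / 128 := fun k =>
          ((measurePreserving_snd (μ := gauss (Fin N)) (ν := ν)).comp
            (measurePreserving_eval (fun _ : Fin (M N) => law (Fin N) ν) k)).quasiMeasurePreserving.ae
            hν
        filter_upwards [ae_all_iff.2 hall] with ω hω using pressure_eq β a hN (M N) ω hω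
      have i1' : Integrable Φ Q := i1
      have hmean : (∫ ω, pressure β (coupling a N (M N) ω) ∂Q) = β * a / 2 + m N := by
        rw [integral_congr_ae hP, integral_add (integrable_const _) (i1'.div_const _), integral_div, integral_div,
          show ∫ ω, Φ ω ∂Q = w from e1]
        simp
        rfl
      have e : ∀ᵐ ω ∂Q, (pressure β (coupling a N (M N) ω) - (β * a / 2 + L)) ^ 2 =
          (Φ ω - w) ^ 2 / (N : ℝ) ^ 2 + (2 * (m N - L) / N * (Φ ω - w) + (m N - L) ^ 2) := by
        filter_upwards [hP] with ω hω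
        rw [hω, show m N = w / N from rfl]
        field_simp
        ring
      have j1 : Integrable (fun ω => (Φ ω - w) ^ 2 / (N : ℝ) ^ 2) Q := i2.div_const _
      have j2 : Integrable (fun ω => 2 * (m N - L) / N * (Φ ω - w)) Q :=
        (i1'.sub (integrable_const w)).const_mul _
      have j3 : Integrable (fun ω => 2 * (m N - L) / N * (Φ ω - w) + (m N - L) ^ 2) Q :=
        j2.add (integrable_const _)
      refine ⟨hmean, (j1.add j3).congr (e.mono fun ω h => h.symm), ?_⟩
      have hT : T N = (∫ ω, (Φ ω - w) ^ 2 ∂Q) / (N : ℝ) ^ 2 + (m N - L) ^ 2 := by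
        simp only [T]
        rw [integral_congr_ae e, integral_add j1 j3, integral_div,
          integral_add j2 (integrable_const _), integral_const_mul,
          integral_sub i1' (integrable_const _), show ∫ ω, Φ ω ∂Q = w from e1]
        simp
      rw [hT]
      refine add_le_add ?_ le_rfl
      rw [div_le_div_iff₀ (by positivity) hN0]
      have hM : ((M N : ℕ) : ℝ) ≤ α * N := Nat.floor_le (by positivity)
      have := mul_le_mul_of_nonneg_right (e2.trans (mul_le_mul_of_nonneg_left hM (by norm_num)))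
        hN0.le
      exact this.trans (le_of_eq (by ring))
    refine ⟨?_, ?_, ?_⟩
    · refine (hL.const_add (β * a / 2)).congr' ?_
      filter_upwards [eventually_gt_atTop 0] with N hN using (key N hN).1.symm
    · filter_upwards [eventually_gt_atTop 0] with N hN using (key N hN).2.1
    · have h2 : Tendsto (fun N : ℕ => 6 * α / N + (m N - L) ^ 2) atTop (𝓝 0) := by
        have := ((tendsto_const_div_atTop_nhds_zero_nat (6 * α)).add
          ((hL.sub_const L).pow 2))
        simpa [hm, M] using this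
      refine squeeze_zero' (Eventually.of_forall fun N => integral_nonneg fun g => sq_nonneg _) ?_ h2
      filter_upwards [eventually_gt_atTop 0] with N hN using (key N hN).2.2

end Vale.Agent.Results.P166.CompoundWishartLimit
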