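import Vale.Agent.P166F.Main
import Vale.Agent.P166N.Spectrum.Main

/-!
P166: the limiting pressure of orthogonally invariant Ising spin glasses, for every compactly supported
spectral law and every inverse temperature.
-/

namespace Vale.Agent.Results.P166.VariationalFormula

open MeasureTheory Filter
open scoped Topology
open Vale.Agent.P166 (pressure Admissible)
open Vale.Agent.P166N.Spectrum (OrthInvLaw)
open Vale.Agent.P166F (formulaValues formula_bddBelow pressure_formula)

/-- For every compactly supported law there is one number, the infimum over step paths of the energy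
plus the entropy, to which the pressure tends in mean and in probability for every admissible array
and left-invariant eigenvector laws. -/
theorem result (μ : Measure ℝ) [IsProbabilityMeasure μ] (hμ : IsCompact μ.support) (β : ℝ)
    (hβ : 0 < β) :
    (∀ N, ∃ ν, OrthInvLaw N ν) ∧
    ∃ L : ℝ, IsGLB (formulaValues μ β) L ∧
      ∀ Λ : (N : ℕ) → Fin N → ℝ, Admissible μ Λ →
        ∀ ν : (N : ℕ) → Measure (Fin N → Fin N → ℝ), (∀ N, OrthInvLaw N (ν N)) →
          Tendsto (fun N => ∫ U, pressure N β (Λ N) U ∂ν N) atTop (𝓝 L) ∧
          ∀ δ > 0, Tendsto (fun N => ν N {U | δ < |pressure N β (Λ N) U - L|}) atTop (𝓝 0) := by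
  obtain ⟨hbdd, hne⟩ := formula_bddBelow hμ hβ.le
  refine ⟨Vale.Agent.P166N.Spectrum.exists_orthInvLaw, sInf (formulaValues μ β),
    isGLB_csInf hne hbdd, fun Λ hΛ ν hν => ?_⟩
  obtain ⟨L, hL, h⟩ := pressure_formula μ hμ β hβ Λ hΛ ν hν
  rwa [hL.unique (isGLB_csInf hne hbdd)] at h

end Vale.Agent.Results.P166.VariationalFormula
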